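import Vale.Agent.P127.LipschitzSelection
import Vale.Agent.P127.Hoelder.Core

/-!
Kakeya sets with a selection that is Hölder of exponent `α > (n - 2) / (n - 1)` on an open set of
directions have positive measure.
-/

namespace Vale.Agent.P127.Hoelder

open MeasureTheory Metric Set Filter
open scoped NNReal ENNReal Topology

/-- Products with a Lipschitz factor keep Hölder bounds. -/
lemma norm_smul_sub_smul_le {F : Type*} [NormedAddCommGroup F] [NormedSpace ℝ F] (a b : ℝ) (v w : F) :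
    ‖a • v - b • w‖ ≤ |a - b| * ‖v‖ + |b| * ‖v - w‖ := by
  rw [show a • v - b • w = (a - b) • v + b • (v - w) by rw [sub_smul, smul_sub]; abel]
  refine (norm_add_le _ _).trans ?_
  rw [norm_smul, norm_smul, Real.norm_eq_abs, Real.norm_eq_abs]

/-- The coordinatewise clamp to a ball. -/
noncomputable def clamp {m : ℕ} (u₀ : X m) (r : ℝ) (x : X m) : X m :=
  fun i => max (u₀ i - r) (min (u₀ i + r) (x i))

lemma clamp_mem {m : ℕ} (u₀ : X m) {r : ℝ} (hr : 0 ≤ r) (x : X m) :
    clamp u₀ r x ∈ closedBall u₀ r := by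
  rw [mem_closedBall, dist_pi_le_iff hr]
  intro i
  rw [Real.dist_eq, abs_le]
  constructor
  · simp only [clamp]
    linarith [le_max_left (u₀ i - r) (min (u₀ i + r) (x i))]
  · have : max (u₀ i - r) (min (u₀ i + r) (x i)) ≤ u₀ i + r :=
      max_le (by linarith) (min_le_left _ _)
    simp only [clamp]
    linarith

lemma clamp_eq {m : ℕ} {u₀ : X m} {r : ℝ} {x : X m} (hx : x ∈ closedBall u₀ r) :
    clamp u₀ r x = x := by
  funext i
  have h := (dist_le_pi_dist x u₀ i).trans (mem_closedBall.1 hx)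
  rw [Real.dist_eq, abs_le] at h
  simp only [clamp]
  rw [min_eq_right (by linarith [h.2]), max_eq_right (by linarith [h.1])]

lemma norm_clamp_sub_le {m : ℕ} (u₀ : X m) (r : ℝ) (x y : X m) :
    ‖clamp u₀ r x - clamp u₀ r y‖ ≤ ‖x - y‖ := by
  refine (pi_norm_le_iff_of_nonneg (norm_nonneg _)).2 fun i => ?_
  refine le_trans ?_ (norm_le_pi_norm (x - y) i)
  simp only [Pi.sub_apply, clamp, Real.norm_eq_abs]
  refine (abs_max_sub_max_le_max _ _ _ _).trans (max_le (by simp) ?_)
  exact (abs_min_sub_min_le_max _ _ _ _).trans (max_le (by simp) le_rfl)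

/-- The segments need not be based in a hyperplane. -/
theorem core_ball {m : ℕ} {K : Set (X (m + 1))} {A : X m → X (m + 1)} {u₀ : X m} {r T C α : ℝ}
    (hr : 0 < r) (hr2 : r ≤ 1 / 2) (hT : 0 < T) (hC : 0 ≤ C) (hα0 : 0 < α)
    (hα : 0 < α + (α - 1) * ((m - 1 : ℕ) : ℝ)) (hα1 : α ≤ 1)
    (hH : ∀ x ∈ closedBall u₀ r, ∀ y ∈ closedBall u₀ r, ‖A x - A y‖ ≤ C * ‖x - y‖ ^ α)
    (hseg : ∀ u ∈ closedBall u₀ r, ∀ s ∈ Icc (0 : ℝ) T, A u + s • line u ∈ K) :
    0 < volume K := by
  set l := Fin.last m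
  obtain ⟨ρ, hρ, hρr, hρT⟩ : ∃ ρ, 0 < ρ ∧ ρ ≤ r ∧ C * ρ ^ α ≤ T / 4 := by
    have h : Tendsto (fun ρ : ℝ => C * ρ ^ α) (𝓝[>] 0) (𝓝 0) := by
      have h := ((Real.continuous_rpow_const hα0.le).tendsto (0 : ℝ)).const_mul C
      rw [Real.zero_rpow hα0.ne', mul_zero] at h
      exact h.mono_left nhdsWithin_le_nhds
    obtain ⟨ρ, ⟨h1, h2⟩, h3⟩ := (((h.eventually (Iic_mem_nhds (show (0 : ℝ) < T / 4 by linarith))).and
      (mem_nhdsWithin_of_mem_nhds (Iic_mem_nhds hr))).and self_mem_nhdsWithin).exists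
    exact ⟨ρ, h3, h2, h1⟩
  set τ := A u₀ l + T / 4
  set A' : X m → X (m + 1) := fun x =>
    A (clamp u₀ ρ x) + (τ - A (clamp u₀ ρ x) l) • line (clamp u₀ ρ x)
  have hmem : ∀ x, clamp u₀ ρ x ∈ closedBall u₀ r := fun x =>
    closedBall_subset_closedBall hρr (clamp_mem u₀ hρ.le x)
  have hlast : ∀ x ∈ closedBall u₀ ρ, |A x l - A u₀ l| ≤ T / 4 := by
    intro x hx
    refine le_trans ?_ hρT
    have h := hH x (closedBall_subset_closedBall hρr hx) u₀ (mem_closedBall_self hr.le)
    refine ((norm_le_pi_norm (A x - A u₀) l).trans h).trans ?_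
    gcongr
    simpa [dist_eq_norm] using hx
  refine core (A := A') (u₀ := u₀) (r := ρ) (t₀ := T / 2) (τ := τ)
    (C := C + (C * (‖u₀‖ + r + 1) + T / 2)) hρ (by linarith) (by positivity) hα0 hα hα1
    (fun x y => ?_) (fun x => by simp [A', line, l]) fun u hu t ht => ?_
  · set p := clamp u₀ ρ x
    set q := clamp u₀ ρ y
    have hd : ‖p - q‖ ≤ ‖x - y‖ := norm_clamp_sub_le u₀ ρ x y
    have hp1 : ‖p - q‖ ≤ 1 := by
      rw [← dist_eq_norm]
      linarith [dist_triangle_right p q u₀, mem_closedBall.1 (hmem x), mem_closedBall.1 (hmem y)]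
    have hA : ‖A p - A q‖ ≤ C * ‖x - y‖ ^ α :=
      (hH p (hmem x) q (hmem y)).trans (by gcongr)
    have hl : ‖line p - line q‖ ≤ ‖x - y‖ ^ α := by
      rw [line_eq, line_eq, add_sub_add_right_eq_sub, ← map_sub]
      refine (norm_snocL_le _).trans (le_trans ?_ (Real.rpow_le_rpow (norm_nonneg _) hd hα0.le))
      exact Real.self_le_rpow_of_le_one (norm_nonneg _) hp1 hα1
    have hline : ‖line p‖ ≤ ‖u₀‖ + r + 1 :=
      (norm_line_le p).trans (by linarith [norm_le_of_mem_closedBall (hmem x)])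
    have hτ : |τ - A q l| ≤ T / 2 := by
      have := hlast q (clamp_mem u₀ hρ.le y)
      rw [abs_le] at this ⊢
      simp only [τ]
      constructor <;> linarith [this.1, this.2]
    have h0 : 0 ≤ ‖x - y‖ ^ α := Real.rpow_nonneg (norm_nonneg _) _
    calc ‖A' x - A' y‖
        = ‖(A p - A q) + ((τ - A p l) • line p - (τ - A q l) • line q)‖ := by
          congr 1
          simp only [A', p, q]
          abel
      _ ≤ ‖A p - A q‖ + (|(τ - A p l) - (τ - A q l)| * ‖line p‖ + |τ - A q l| * ‖line p - line q‖) :=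
          (norm_add_le _ _).trans (add_le_add le_rfl (norm_smul_sub_smul_le _ _ _ _))
      _ ≤ C * ‖x - y‖ ^ α + ((C * ‖x - y‖ ^ α) * (‖u₀‖ + r + 1) + T / 2 * ‖x - y‖ ^ α) := by
          have h1 : |(τ - A p l) - (τ - A q l)| ≤ C * ‖x - y‖ ^ α := by
            rw [show (τ - A p l) - (τ - A q l) = (A q - A p) l by simp]
            exact (norm_le_pi_norm (A q - A p) l).trans (by rw [norm_sub_rev]; exact hA)
          gcongr
      _ = _ := by ring
  · have h := hlast u hu
    rw [abs_le] at h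
    have e : A' u + t • line u = A u + (τ - A u l + t) • line u := by
      simp only [A', clamp_eq hu]
      rw [add_smul, add_assoc]
    rw [e]
    refine hseg u (closedBall_subset_closedBall hρr hu) _ ⟨?_, ?_⟩ <;>
      simp only [τ] <;> linarith [ht.1, ht.2, h.1, h.2]

/-- A Hölder selection on an open set of directions gives positive measure. -/
theorem measure_pos_of_hoelder_selection {m : ℕ} (hm : 0 < m)
    (K U : Set (EuclideanSpace ℝ (Fin (m + 1))))
    (a : EuclideanSpace ℝ (Fin (m + 1)) → EuclideanSpace ℝ (Fin (m + 1))) (C α : ℝ≥0)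
    (hU : IsOpen U) (hne : (U ∩ sphere 0 1).Nonempty) (hα : (m : ℝ) - 1 < m * (α : ℝ))
    (ha : HolderOnWith C α a (U ∩ sphere 0 1))
    (hseg : ∀ e ∈ U ∩ sphere 0 1, ∀ t ∈ Icc (0 : ℝ) 1, a e + t • e ∈ K) : 0 < volume K := by
  classical
  obtain ⟨e₀, he₀U, he₀⟩ := hne
  rw [mem_sphere_zero_iff_norm] at he₀
  obtain ⟨j, hj⟩ : ∃ j, e₀ j ≠ 0 := by
    by_contra h
    push Not at h
    have : e₀ = 0 := PiLp.ext fun i => by simpa using h i
    simp [this] at he₀
  let L₀ : X (m + 1) →ₗ[ℝ] EuclideanSpace ℝ (Fin (m + 1)) :=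
    (LinearMap.proj (R := ℝ) (φ := fun _ : Fin (m + 1) => ℝ) (Fin.last m)).smulRight e₀ +
      ∑ i : Fin m, (LinearMap.proj (R := ℝ) (φ := fun _ : Fin (m + 1) => ℝ) i.castSucc).smulRight
        (EuclideanSpace.single (j.succAbove i) (1 : ℝ))
  have hL₀ : ∀ x, L₀ x = x (Fin.last m) • e₀ +
      ∑ i : Fin m, x i.castSucc • EuclideanSpace.single (j.succAbove i) (1 : ℝ) := fun x => by
    simp [L₀, LinearMap.sum_apply]
  have hinj : Function.Injective L₀ := by
    refine (injective_iff_map_eq_zero L₀).2 fun x hx => ?_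
    rw [hL₀] at hx
    have hcoord : ∀ k, x (Fin.last m) * e₀ k +
        ∑ i : Fin m, x i.castSucc * (Pi.single (j.succAbove i) (1 : ℝ) : X (m + 1)) k = 0 := fun k => by
      simpa using congrArg (fun v : EuclideanSpace ℝ (Fin (m + 1)) => v k) hx
    have hl : x (Fin.last m) = 0 := by
      have := hcoord j
      simpa [Pi.single_apply, (Fin.succAbove_ne j _).symm, hj] using this
    funext k
    refine Fin.lastCases ?_ (fun i => ?_) k
    · exact hl
    · have := hcoord (j.succAbove i)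
      simpa [hl, Pi.single_apply, Fin.succAbove_right_inj] using this
  have hfin : Module.finrank ℝ (X (m + 1)) =
      Module.finrank ℝ (EuclideanSpace ℝ (Fin (m + 1))) := by simp
  let L : X (m + 1) ≃L[ℝ] EuclideanSpace ℝ (Fin (m + 1)) :=
    (L₀.linearEquivOfInjective hinj hfin).toContinuousLinearEquiv
  set v : X m → EuclideanSpace ℝ (Fin (m + 1)) := fun u => L (line u)
  set dir : X m → EuclideanSpace ℝ (Fin (m + 1)) := fun u => ‖v u‖⁻¹ • v u
  have hv0 : v 0 = e₀ := by
    show L₀ (line (0 : X m)) = e₀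
    rw [hL₀]
    simp [line]
  have hvne : ∀ u, v u ≠ 0 := fun u h => by
    have h2 := congrFun (L.injective (h.trans (map_zero L).symm)) (Fin.last m)
    simp [line] at h2
  have hvd : ContDiff ℝ 1 v := L.contDiff.comp contDiff_line
  have hdird : ContDiffAt ℝ 1 dir 0 :=
    ((hvd.contDiffAt.norm ℝ (hvne 0)).inv (norm_ne_zero_iff.2 (hvne 0))).smul hvd.contDiffAt
  obtain ⟨Ld, N, hN, hLd⟩ := hdird.exists_lipschitzOnWith
  have hdir0 : dir 0 = e₀ := by simp [dir, hv0, he₀]
  have hev : ∀ᶠ u in 𝓝 (0 : X m), u ∈ N ∧ dir u ∈ U ∧ ‖v u‖ < 2 ∧ dist (dir u) e₀ < 1 / 2 := by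
    refine (eventually_mem_set.2 hN).and ((hdird.continuousAt.eventually_mem
      (hU.mem_nhds (by rw [hdir0]; exact he₀U))).and (((hvd.continuous.norm.continuousAt).eventually
        (gt_mem_nhds (show ‖v 0‖ < 2 by rw [hv0, he₀]; norm_num))).and ?_))
    have h := hdird.continuousAt.eventually_mem (ball_mem_nhds (dir 0) (show (0 : ℝ) < 1 / 2 by norm_num))
    rw [hdir0] at h
    exact h
  obtain ⟨r₀, hr₀, hball⟩ := nhds_basis_closedBall.eventually_iff.1 hev
  set r := min r₀ (1 / 2)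
  have hr : 0 < r := lt_min hr₀ (by norm_num)
  have hgood : ∀ u ∈ closedBall (0 : X m) r,
      u ∈ N ∧ dir u ∈ U ∧ ‖v u‖ < 2 ∧ dist (dir u) e₀ < 1 / 2 := fun u hu =>
    hball (closedBall_subset_closedBall (min_le_left _ _) hu)
  have hS : ∀ u ∈ closedBall (0 : X m) r, dir u ∈ U ∩ sphere 0 1 := fun u hu =>
    ⟨(hgood u hu).2.1, mem_sphere_zero_iff_norm.2 (norm_smul_inv_norm (hvne u))⟩
  set β : ℝ := min (α : ℝ) 1
  have hm1 : (1 : ℝ) ≤ m := by exact_mod_cast hm
  have hβ : 0 < β := lt_min (by nlinarith) one_pos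
  have hβm : 0 < β + (β - 1) * ((m - 1 : ℕ) : ℝ) := by
    rw [Nat.cast_sub hm, Nat.cast_one]
    simp only [β]
    rcases le_total (α : ℝ) 1 with h | h
    · rw [min_eq_left h]; linarith
    · rw [min_eq_right h]; linarith
  set Ls : ℝ := ‖(L.symm : EuclideanSpace ℝ (Fin (m + 1)) →L[ℝ] X (m + 1))‖
  set A : X m → X (m + 1) := fun u => L.symm (a (dir u))
  have hK : 0 < volume (L ⁻¹' K) := by
    refine core_ball (A := A) (u₀ := 0) (r := r) (T := 1 / 2) (α := β) (C := Ls * (C * (Ld : ℝ) ^ β))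
      hr (min_le_right _ _) (by norm_num) (by positivity) hβ hβm (min_le_right _ _)
      (fun x hx y hy => ?_) fun u hu s hs => ?_
    · simp only [A, ← map_sub]
      refine ((L.symm : EuclideanSpace ℝ (Fin (m + 1)) →L[ℝ] X (m + 1)).le_opNorm _).trans ?_
      rw [mul_assoc]
      refine mul_le_mul_of_nonneg_left ?_ (norm_nonneg _)
      rw [← dist_eq_norm, mul_assoc]
      refine (ha.dist_le (hS x hx) (hS y hy)).trans (mul_le_mul_of_nonneg_left ?_ C.2)
      refine le_trans ?_ (Real.mul_rpow Ld.2 (norm_nonneg _)).le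
      refine le_trans ?_ (Real.rpow_le_rpow dist_nonneg
        ((hLd.dist_le_mul x (hgood x hx).1 y (hgood y hy).1).trans_eq
          (congrArg ((Ld : ℝ) * ·) (dist_eq_norm x y))) hβ.le)
      rcases (dist_nonneg (x := dir x) (y := dir y)).eq_or_lt with h | h
      · rw [← h, Real.zero_rpow (show (α : ℝ) ≠ 0 by nlinarith), Real.zero_rpow hβ.ne']
      · exact Real.rpow_le_rpow_of_exponent_ge h (by
          linarith [dist_triangle_right (dir x) (dir y) e₀, (hgood x hx).2.2.2, (hgood y hy).2.2.2])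
          (min_le_left _ _)
    · show L (L.symm (a (dir u)) + s • line u) ∈ K
      rw [map_add, map_smul, L.apply_symm_apply]
      have hpos : 0 < ‖v u‖ := norm_pos_iff.2 (hvne u)
      have e : s • L (line u) = (s * ‖v u‖) • dir u := by
        simp only [dir, smul_smul]
        rw [mul_assoc, mul_inv_cancel₀ hpos.ne', mul_one]
      rw [e]
      refine hseg _ (hS u hu) _ ⟨mul_nonneg hs.1 hpos.le, ?_⟩
      nlinarith [(hgood u hu).2.2.1, hs.1, hs.2]
  by_contra h
  rw [not_lt, nonpos_iff_eq_zero] at h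
  have : (Measure.map (⇑L) (volume : Measure (X (m + 1)))).IsAddHaarMeasure :=
    L.isAddHaarMeasure_map volume
  have h' : Measure.map (⇑L) (volume : Measure (X (m + 1))) K = 0 := by
    rw [Measure.isAddLeftInvariant_eq_smul (Measure.map (⇑L) (volume : Measure (X (m + 1)))) volume]
    simp [h]
  refine hK.ne' ?_
  rw [show Measure.map (⇑L) (volume : Measure (X (m + 1))) =
    Measure.map L.toHomeomorph.toMeasurableEquiv volume from rfl, MeasurableEquiv.map_apply] at h'
  exact h'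

end Vale.Agent.P127.Hoelder
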