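import Mathlib

/-!
Kakeya sets with a selection Lipschitz on a positive-measure set of directions.
-/

namespace Vale.Agent.P127

open MeasureTheory Set Filter Topology
open scoped NNReal ENNReal Pointwise

variable {E : Type*} [NormedAddCommGroup E] [NormedSpace ℝ E] [FiniteDimensional ℝ E]
  [MeasurableSpace E] [BorelSpace E]

theorem image_pos_of_deriv_invertible (μ : Measure E) [μ.IsAddHaarMeasure] (f : E → E) (s : Set E)
    (f' : E → E →L[ℝ] E) (hf' : ∀ x ∈ s, HasFDerivWithinAt f (f' x) s x)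
    (hdet : ∀ x ∈ s, (f' x).det ≠ 0) (hs : μ s ≠ 0) : μ (f '' s) ≠ 0 := by
  classical
  have hex : ∀ A : E →L[ℝ] E, ∃ δ : ℝ≥0, δ ≠ 0 ∧ ∃ m : ℝ≥0, (A.det ≠ 0 → m ≠ 0) ∧
      ∀ (s : Set E) (f : E → E), ApproximatesLinearOn f A s δ →
        (m : ℝ≥0∞) * μ s ≤ μ (f '' s) := by
    intro A
    by_cases hA : A.det = 0
    · exact ⟨1, one_ne_zero, 0, fun h => absurd hA h, fun s f _ => by simp⟩
    · obtain ⟨m, hm0, hm⟩ : ∃ m : ℝ≥0, m ≠ 0 ∧ (m : ℝ≥0∞) < ENNReal.ofReal |A.det| := by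
        have h1 : (0 : ℝ≥0∞) < ENNReal.ofReal |A.det| := by simpa using hA
        obtain ⟨m, hm1, hm2⟩ := ENNReal.lt_iff_exists_nnreal_btwn.1 h1
        exact ⟨m, by simpa [pos_iff_ne_zero] using hm1, hm2⟩
      obtain ⟨δ, hδ, hδ0⟩ := ((mul_le_addHaar_image_of_lt_det μ A hm).and
        self_mem_nhdsWithin).exists
      exact ⟨δ, fun h => lt_irrefl _ (h ▸ Set.mem_Ioi.1 hδ0), m, fun _ => hm0, hδ⟩
  choose δ hδ m hm hle using hex
  obtain ⟨t, A, -, -, hcov, happ, hA⟩ :=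
    exists_partition_approximatesLinearOn_of_hasFDerivWithinAt f s f' hf' δ hδ
  obtain ⟨k, hk⟩ : ∃ k, μ (s ∩ t k) ≠ 0 := by
    by_contra hne
    push Not at hne
    refine hs (measure_mono_null ?_ (measure_iUnion_null hne))
    intro x hx
    obtain ⟨k, hk⟩ := mem_iUnion.1 (hcov hx)
    exact mem_iUnion.2 ⟨k, hx, hk⟩
  obtain ⟨y, hy, hAy⟩ := hA (nonempty_of_measure_ne_zero hs) k
  intro h0
  have := hle (A k) (s ∩ t k) f (happ k)
  rw [measure_mono_null (image_mono inter_subset_left) h0] at this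
  rcases mul_eq_zero.1 (nonpos_iff_eq_zero.1 this) with h | h
  · exact hm (A k) (hAy ▸ hdet y hy) (by simpa using h)
  · exact hk h

omit [MeasurableSpace E] [BorelSpace E] in
theorem exists_small_det_ne_zero (A : E →L[ℝ] E) :
    ∃ k : ℕ, (A + (1 / ((k : ℝ) + 1)) • ContinuousLinearMap.id ℝ E).det ≠ 0 := by
  by_contra hne
  push Not at hne
  have hfin := Module.End.finite_hasEigenvalue (A : E →ₗ[ℝ] E)
  refine (Set.infinite_range_of_injective (f := fun k : ℕ => -(1 / ((k : ℝ) + 1))) ?_).mono ?_ hfin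
  · intro i j h
    simpa using h
  · rintro r ⟨k, rfl⟩
    have hd := hne k
    rw [ContinuousLinearMap.det, LinearMap.det_eq_zero_iff_ker_ne_bot] at hd
    obtain ⟨v, hv, hv0⟩ := Submodule.exists_mem_ne_zero_of_ne_bot hd
    refine Module.End.hasEigenvalue_of_hasEigenvector ⟨Module.End.mem_eigenspace_iff.2 ?_, hv0⟩
    rw [LinearMap.mem_ker] at hv
    simp only [ContinuousLinearMap.coe_add, ContinuousLinearMap.coe_smul, LinearMap.add_apply,
      LinearMap.smul_apply, ContinuousLinearMap.coe_coe, ContinuousLinearMap.coe_id,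
      LinearMap.id_coe, id_eq, ContinuousLinearMap.coe_id'] at hv ⊢
    rw [neg_smul]
    exact eq_neg_of_add_eq_zero_left hv

omit [FiniteDimensional ℝ E] [MeasurableSpace E] [BorelSpace E] in
theorem dist_normalize (x y : E) (hx : 1 / 2 ≤ ‖x‖) :
    dist (‖x‖⁻¹ • x) (‖y‖⁻¹ • y) ≤ 4 * dist x y := by
  rw [dist_eq_norm, dist_eq_norm]
  by_cases hy : y = 0
  · subst hy
    simp only [norm_zero, inv_zero, zero_smul, sub_zero, norm_smul, norm_inv, norm_norm]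
    rw [inv_mul_cancel₀ (by linarith)]
    linarith
  · have hy0 : 0 < ‖y‖ := norm_pos_iff.2 hy
    have hx0 : 0 < ‖x‖ := by linarith
    have key : ‖x‖⁻¹ • x - ‖y‖⁻¹ • y =
        ‖x‖⁻¹ • (x - y) + ((‖y‖ - ‖x‖) * ‖x‖⁻¹ * ‖y‖⁻¹) • y := by
      rw [smul_sub, sub_mul, sub_mul, sub_smul]
      field_simp
      module
    rw [key]
    refine (norm_add_le _ _).trans ?_
    rw [norm_smul, norm_smul, norm_mul, norm_mul, norm_inv, norm_inv, norm_norm, norm_norm]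
    have h1 : ‖x‖⁻¹ ≤ 2 := by
      rw [inv_le_comm₀ hx0 (by norm_num)]
      linarith
    have h2 : ‖‖y‖ - ‖x‖‖ ≤ ‖x - y‖ := by
      rw [Real.norm_eq_abs, abs_sub_comm]
      exact abs_norm_sub_norm_le x y
    have h3 : ‖‖y‖ - ‖x‖‖ * ‖x‖⁻¹ * ‖y‖⁻¹ * ‖y‖ = ‖‖y‖ - ‖x‖‖ * ‖x‖⁻¹ := by
      field_simp
    rw [h3]
    nlinarith [norm_nonneg (x - y), norm_nonneg (‖y‖ - ‖x‖), inv_nonneg.2 hx0.le]

theorem annulus_pos (μ : Measure E) [μ.IsAddHaarMeasure] [Nontrivial E] (D : Set E)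
    (hD : μ {x : E | ‖x‖⁻¹ • x ∈ D} ≠ 0) :
    μ {x : E | ‖x‖⁻¹ • x ∈ D ∧ 1 / 2 ≤ ‖x‖ ∧ ‖x‖ ≤ 1} ≠ 0 := by
  intro h0
  refine hD (measure_mono_null ?_
    (measure_union_null (measure_singleton (0 : E)) (measure_iUnion_null fun k : ℤ =>
      (Measure.addHaar_smul μ ((2 : ℝ) ^ k) _).trans (by rw [h0, mul_zero]))))
  intro x hx
  by_cases hx0 : x = 0
  · exact Or.inl hx0
  · have hn : 0 < ‖x‖ := norm_pos_iff.2 hx0
    obtain ⟨k, hk1, hk2⟩ := exists_mem_Ioc_zpow hn (show (1 : ℝ) < 2 by norm_num)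
    refine Or.inr (mem_iUnion.2 ⟨k + 1, ((2 : ℝ) ^ (k + 1))⁻¹ • x, ⟨?_, ?_, ?_⟩, ?_⟩)
    · show ‖((2 : ℝ) ^ (k + 1))⁻¹ • x‖⁻¹ • _ ∈ D
      have hp : (0 : ℝ) < ((2 : ℝ) ^ (k + 1))⁻¹ := by positivity
      rw [norm_smul, Real.norm_of_nonneg hp.le, mul_inv, smul_smul, mul_assoc,
        mul_comm ‖x‖⁻¹, ← mul_assoc, inv_mul_cancel₀ hp.ne', one_mul]
      exact hx
    · rw [norm_smul, Real.norm_of_nonneg (by positivity), le_inv_mul_iff₀ (by positivity),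
        zpow_add_one₀ (by norm_num)]
      linarith
    · rw [norm_smul, Real.norm_of_nonneg (by positivity), inv_mul_le_iff₀ (by positivity), mul_one]
      exact hk2
    · exact smul_inv_smul₀ (by positivity) x

theorem kakeya_measure_ne_zero (μ : Measure E) [μ.IsAddHaarMeasure] [Nontrivial E] (K D : Set E)
    (a : E → E) (C : ℝ≥0) (ha : LipschitzOnWith C a D)
    (hseg : ∀ e ∈ D, ∀ t ∈ Icc (0 : ℝ) 1, a e + t • e ∈ K)
    (hD : μ {x : E | ‖x‖⁻¹ • x ∈ D} ≠ 0) : μ K ≠ 0 := by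
  classical
  set S₀ := {x : E | ‖x‖⁻¹ • x ∈ D ∧ 1 / 2 ≤ ‖x‖ ∧ ‖x‖ ≤ 1}
  have hlip : LipschitzOnWith (C * 4) (fun x => a (‖x‖⁻¹ • x)) S₀ := by
    refine LipschitzOnWith.of_dist_le_mul fun x hx y hy => ?_
    calc dist (a (‖x‖⁻¹ • x)) (a (‖y‖⁻¹ • y)) ≤ C * dist (‖x‖⁻¹ • x) (‖y‖⁻¹ • y) :=
          ha.dist_le_mul _ hx.1 _ hy.1
      _ ≤ C * (4 * dist x y) :=
          mul_le_mul_of_nonneg_left (dist_normalize x y hx.2.1) C.coe_nonneg
      _ = ((C * 4 : ℝ≥0) : ℝ) * dist x y := by push_cast; ring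
  obtain ⟨G, hG, hGeq⟩ := hlip.extend_finite_dimension
  let T : ℕ → Set E := fun k => {x ∈ S₀ | DifferentiableAt ℝ G x ∧
    (fderiv ℝ G x + (1 / ((k : ℝ) + 1)) • ContinuousLinearMap.id ℝ E).det ≠ 0}
  obtain ⟨k, hk⟩ : ∃ k, μ (T k) ≠ 0 := by
    by_contra hne
    push Not at hne
    refine annulus_pos μ D hD (measure_mono_null ?_
      (measure_union_null (ae_iff.1 (hG.ae_differentiableAt (μ := μ))) (measure_iUnion_null hne)))
    intro x hx
    by_cases hd : DifferentiableAt ℝ G x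
    · obtain ⟨k, hk⟩ := exists_small_det_ne_zero (fderiv ℝ G x)
      exact Or.inr (mem_iUnion.2 ⟨k, hx, hd, hk⟩)
    · exact Or.inl hd
  set s : ℝ := 1 / ((k : ℝ) + 1)
  have himg : μ ((fun x => G x + s • x) '' T k) ≠ 0 :=
    image_pos_of_deriv_invertible μ _ (T k)
      (fun x => fderiv ℝ G x + s • ContinuousLinearMap.id ℝ E)
      (fun x hx => ((hx.2.1.hasFDerivAt.add
        ((hasFDerivAt_id x).const_smul s)).hasFDerivWithinAt))
      (fun x hx => hx.2.2) hk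
  refine fun h0 => himg (measure_mono_null ?_ h0)
  rintro _ ⟨x, hx, rfl⟩
  have hs0 : 0 < s := by positivity
  have hs1 : s ≤ 1 := by
    simp only [s]
    rw [div_le_one (by positivity)]
    linarith [(Nat.cast_nonneg k : (0 : ℝ) ≤ k)]
  have hn : 0 < ‖x‖ := by linarith [hx.1.2.1]
  have := hseg _ hx.1.1 (s * ‖x‖) ⟨by positivity, by nlinarith [hx.1.2.2]⟩
  rw [smul_smul, mul_assoc, mul_inv_cancel₀ hn.ne', mul_one] at this
  show G x + s • x ∈ K
  rw [← hGeq hx.1]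
  exact this

theorem kakeya_dimH (μ : Measure E) [μ.IsAddHaarMeasure] (K : Set E) (hK : μ K ≠ 0) :
    dimH K = Module.finrank ℝ E := by
  refine le_antisymm ((dimH_mono (subset_univ K)).trans_eq (Real.dimH_univ_eq_finrank E)) ?_
  have h := le_dimH_of_hausdorffMeasure_ne_zero (s := K) (d := (Module.finrank ℝ E : ℝ≥0)) ?_
  · simpa using h
  · rw [NNReal.coe_natCast]
    exact fun h0 => hK (Measure.absolutelyContinuous_isAddHaarMeasure μ _ h0)

end Vale.Agent.P127
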